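import Vale.Agent.P354X.Defs
import Vale.Agent.P354H.Energy

open scoped ContDiff
open MeasureTheory Set Filter Topology

namespace Vale.Agent.P354X

open Vale.Agent.P354H

variable {V V' : Type} [NormedAddCommGroup V] [NormedSpace ℝ V] [NormedAddCommGroup V']
  [NormedSpace ℝ V'] {μ : X3 → ℝ}

/-- Multiplication by the weight. -/
def mw (μ : X3 → ℝ) (f : X3 → V) (x : X3) : V := μ x • f x

/-- The weighted L2 norms of all derivatives of order at most k are bounded by c. -/
def NkW (μ : X3 → ℝ) (k : ℕ) (f : X3 → V) (c : ℝ) : Prop :=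
  ∀ α : List (Fin 3), α.length ≤ k → n2 (mw μ (pdl α f)) ≤ c

theorem c0_mw (hμ : Continuous μ) {f : X3 → V} (hf : C0 f) : C0 (mw μ f) :=
  ⟨hμ.smul hf.1, hf.2.mono fun x hx h => hx (by simp [mw, h])⟩

theorem mw_add (f g : X3 → V) : mw μ (f + g) = mw μ f + mw μ g := by
  funext x; simp [mw]

theorem mw_ap (A : X3 → V →L[ℝ] V') (w : X3 → V) : mw μ (ap A w) = ap A (mw μ w) := by
  funext x; simp [mw, ap]

theorem mw_ap' (A : X3 → V →L[ℝ] V') (w : X3 → V) : mw μ (ap A w) = ap (mw μ A) w := by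
  funext x; simp [mw, ap]

theorem mw_zero : mw μ (0 : X3 → V) = 0 := by
  funext x; simp [mw]

theorem nw_add (hμ : Continuous μ) {f g : X3 → V} (hf : Good f) (hg : Good g) :
    n2 (mw μ (f + g)) ≤ n2 (mw μ f) + n2 (mw μ g) := by
  rw [mw_add]; exact n2_add (c0_mw hμ hf.c0) (c0_mw hμ hg.c0)

theorem NkW.zero {k : ℕ} {f : X3 → V} {c : ℝ} (h : NkW μ k f c) : n2 (mw μ f) ≤ c :=
  h [] (Nat.zero_le _)

theorem NkW.nonneg {k : ℕ} {f : X3 → V} {c : ℝ} (h : NkW μ k f c) : 0 ≤ c :=
  (n2_nonneg _).trans h.zero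

theorem NkW.pd {k : ℕ} {f : X3 → V} {c : ℝ} (h : NkW μ (k + 1) f c) (j : Fin 3) :
    NkW μ k (pd j f) c := fun α hα => h (j :: α) (by simpa using hα)

theorem NkW.mono {k m : ℕ} {f : X3 → V} {c d : ℝ} (h : NkW μ k f c) (hm : m ≤ k) (hd : c ≤ d) :
    NkW μ m f d := fun α hα => (h α (hα.trans hm)).trans hd

theorem NkW.low {k m : ℕ} {f : X3 → V} {c : ℝ} (h : NkW μ k f c) (hm : m ≤ k) : NkW μ m f c :=
  h.mono hm le_rfl

theorem NkW.pdl {k : ℕ} {f : X3 → V} {c : ℝ} (β : List (Fin 3))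
    (h : NkW μ (k + β.length) f c) : NkW μ k (pdl β f) c := fun α hα => by
  rw [← pdl_append]
  exact h _ (by rw [List.length_append]; omega)

theorem nkw_succ {k : ℕ} {f : X3 → V} {c : ℝ} (h0 : n2 (mw μ f) ≤ c)
    (h : ∀ j, NkW μ k (pd j f) c) : NkW μ (k + 1) f c := by
  intro α hα
  cases α with
  | nil => exact h0
  | cons j α => exact h j α (by simpa using hα)

theorem nkw_zero {f : X3 → V} {c : ℝ} (h0 : n2 (mw μ f) ≤ c) : NkW μ 0 f c := by
  intro α hα
  cases α with
  | nil => exact h0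
  | cons j α => simp at hα

theorem NkW.add (hμ : Continuous μ) {k : ℕ} {f g : X3 → V} {c d : ℝ} (h : NkW μ k f c)
    (h' : NkW μ k g d) (hf : Good f) (hg : Good g) : NkW μ k (f + g) (c + d) := fun α hα => by
  rw [pdl_add α hf.1 hg.1]
  exact (nw_add hμ (hf.pdl α) (hg.pdl α)).trans (add_le_add (h α hα) (h' α hα))

theorem wprod1 (hμ : Continuous μ) {k : ℕ} {A : X3 → V →L[ℝ] V'} {w : X3 → V} {s n : ℝ}
    (hA : ContDiff ℝ ∞ A) (hw : Good w) (h : Sb k A s) (h' : NkW μ k w n) :
    NkW μ k (ap A w) (2 ^ k * (s * n)) := by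
  have h0 : ∀ {k : ℕ} {A : X3 → V →L[ℝ] V'} {w : X3 → V}, ContDiff ℝ ∞ A → Good w → Sb k A s →
      NkW μ k w n → n2 (mw μ (ap A w)) ≤ s * n := fun hA hw h h' => by
    rw [mw_ap]
    exact (n2_ap hA.continuous (c0_mw hμ hw.c0) h.zero).trans
      (mul_le_mul_of_nonneg_left h'.zero h.nonneg)
  induction k generalizing A w with
  | zero => exact nkw_zero (by simpa using h0 hA hw h h')
  | succ k ih =>
    refine nkw_succ ((h0 hA hw h h').trans (le_mul_of_one_le_left
      (mul_nonneg h.nonneg h'.nonneg) (one_le_two_pow _))) fun j => ?_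
    rw [pd_ap j hA hw.1]
    have h1 := ih (pd_sm j hA) hw (h.pd j) (h'.low k.le_succ)
    have h2 := ih hA (hw.pd j) (h.low k.le_succ) (h'.pd j)
    exact (h1.add hμ h2 (hw.ap_right (pd_sm j hA)) ((hw.pd j).ap_right hA)).mono le_rfl
      (le_of_eq (by ring))

theorem wprod1' (hμ : Continuous μ) {k : ℕ} {A : X3 → V →L[ℝ] V'} {w : X3 → V} {s n : ℝ}
    (hA : Good A) (hw : ContDiff ℝ ∞ w) (h : NkW μ k A n) (h' : Sb k w s) :
    NkW μ k (ap A w) (2 ^ k * (n * s)) := by
  have h0 : ∀ {k : ℕ} {A : X3 → V →L[ℝ] V'} {w : X3 → V}, Good A → ContDiff ℝ ∞ w →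
      NkW μ k A n → Sb k w s → n2 (mw μ (ap A w)) ≤ n * s := fun hA hw h h' => by
    rw [mw_ap', mul_comm]
    exact (n2_ap' (c0_mw hμ hA.c0) hw.continuous h'.zero).trans
      (mul_le_mul_of_nonneg_left h.zero h'.nonneg)
  induction k generalizing A w with
  | zero => exact nkw_zero (by simpa using h0 hA hw h h')
  | succ k ih =>
    refine nkw_succ ((h0 hA hw h h').trans (le_mul_of_one_le_left
      (mul_nonneg h.nonneg h'.nonneg) (one_le_two_pow _))) fun j => ?_
    rw [pd_ap j hA.1 hw]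
    have h1 := ih (hA.pd j) hw (h.pd j) (h'.low k.le_succ)
    have h2 := ih hA (pd_sm j hw) (h.low k.le_succ) (h'.pd j)
    exact (h1.add hμ h2 ((hA.pd j).ap_left hw) (hA.ap_left (pd_sm j hw))).mono le_rfl
      (le_of_eq (by ring))

theorem wprod2 (hμ : Continuous μ) {k a b : ℕ} {A : X3 → V →L[ℝ] V'} {w : X3 → V}
    {s1 n1 s2 n2' : ℝ} (hA : Good A) (hw : Good w) (hk : k ≤ a + b + 1) (h1 : Sb a A s1)
    (h2 : NkW μ k A n1) (h3 : Sb b w s2) (h4 : NkW μ k w n2') :
    NkW μ k (ap A w) (2 ^ k * (s1 * n2' + n1 * s2)) := by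
  have p1 : 0 ≤ s1 * n2' := mul_nonneg h1.nonneg h4.nonneg
  have p2 : 0 ≤ n1 * s2 := mul_nonneg h2.nonneg h3.nonneg
  induction k generalizing A w a b with
  | zero =>
    exact (wprod1 hμ hA.1 hw (h1.low (Nat.zero_le _)) h4).mono le_rfl (by simpa using p2)
  | succ k ih =>
    refine nkw_succ ?_ fun j => ?_
    · refine ((wprod1 hμ hA.1 hw (h1.low (Nat.zero_le _)) (h4.low (Nat.zero_le _))).zero).trans ?_
      have := one_le_two_pow (k + 1)
      nlinarith
    · rw [pd_ap j hA.1 hw.1]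
      have q1 : NkW μ k (ap (pd j A) w) (2 ^ k * (s1 * n2' + n1 * s2)) := by
        cases a with
        | zero =>
          refine (wprod1' hμ (hA.pd j) hw.1 (h2.pd j) (h3.low (by omega))).mono le_rfl ?_
          exact mul_le_mul_of_nonneg_left (le_add_of_nonneg_left p1) (by positivity)
        | succ a =>
          exact ih (hA.pd j) hw (by omega) (h1.pd j) (h2.pd j) h3 (h4.low k.le_succ)
      have q2 : NkW μ k (ap A (pd j w)) (2 ^ k * (s1 * n2' + n1 * s2)) := by
        cases b with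
        | zero =>
          refine (wprod1 hμ hA.1 (hw.pd j) (h1.low (by omega)) (h4.pd j)).mono le_rfl ?_
          exact mul_le_mul_of_nonneg_left (le_add_of_nonneg_right p2) (by positivity)
        | succ b =>
          exact ih hA (hw.pd j) (by omega) h1 (h2.low k.le_succ) (h3.pd j) (h4.pd j)
      exact (q1.add hμ q2 ((hA.pd j).ap_left hw.1) (hA.ap_left (pd_sm j hw.1))).mono le_rfl
        (le_of_eq (by ring))

theorem wcomm1 (hμ : Continuous μ) (α : List (Fin 3)) {k : ℕ} {A : X3 → V →L[ℝ] V'} {w : X3 → V}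
    {s n : ℝ} (hA : ContDiff ℝ ∞ A) (hw : Good w) (h : ∀ i, Sb k (pd i A) s) (h' : NkW μ k w n)
    (hα : α.length ≤ k + 1) : n2 (mw μ (comm α A w)) ≤ α.length * (2 ^ k * (s * n)) := by
  have p : 0 ≤ s * n := mul_nonneg (h 0).nonneg h'.nonneg
  induction α generalizing k w with
  | nil => simp [comm_nil, mw_zero, n2_zero]
  | cons j α ih =>
    rw [List.length_cons] at hα
    rw [comm_cons j α hA hw.1, List.length_cons, Nat.cast_succ, add_mul, one_mul,
      add_comm _ (2 ^ k * _)]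
    refine (nw_add hμ ((hw.ap_right (pd_sm j hA)).pdl α) (good_comm α hA (hw.pd j))).trans
      (add_le_add (wprod1 hμ (pd_sm j hA) hw (h j) h' α (by omega)) ?_)
    cases k with
    | zero =>
      have : α = [] := List.eq_nil_of_length_eq_zero (by omega)
      subst this
      simp [comm_nil, mw_zero, n2_zero]
    | succ k =>
      refine (ih (hw.pd j) (fun i => (h i).low (Nat.le_succ _)) (h'.pd j) (by omega)).trans ?_
      gcongr
      · norm_num
      · exact k.le_succ

theorem wcomm2 (hμ : Continuous μ) (α : List (Fin 3)) {k a b : ℕ} {A : X3 → V →L[ℝ] V'}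
    {w : X3 → V} {s1 n1 s2 n2' : ℝ} (hA : Good A) (hw : Good w) (hk : k ≤ a + b + 1)
    (h1 : Sb (a + 1) A s1) (h2 : NkW μ (k + 1) A n1) (h3 : Sb b w s2) (h4 : NkW μ k w n2')
    (hα : α.length ≤ k + 1) :
    n2 (mw μ (comm α A w)) ≤ α.length * (2 ^ k * (s1 * n2' + n1 * s2)) := by
  have p1 : 0 ≤ s1 * n2' := mul_nonneg h1.nonneg h4.nonneg
  have p2 : 0 ≤ n1 * s2 := mul_nonneg h2.nonneg h3.nonneg
  induction α generalizing k w b with
  | nil => simp [comm_nil, mw_zero, n2_zero]
  | cons j α ih =>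
    rw [List.length_cons] at hα
    rw [comm_cons j α hA.1 hw.1, List.length_cons, Nat.cast_succ, add_mul, one_mul,
      add_comm _ (2 ^ k * _)]
    refine (nw_add hμ ((hw.ap_right (pd_sm j hA.1)).pdl α) (good_comm α hA.1 (hw.pd j))).trans
      (add_le_add (wprod2 hμ (hA.pd j) hw hk (h1.pd j) (h2.pd j) h3 h4 α (by omega)) ?_)
    cases k with
    | zero =>
      have : α = [] := List.eq_nil_of_length_eq_zero (by omega)
      subst this
      simp [comm_nil, mw_zero, n2_zero]
    | succ k =>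
      cases b with
      | zero =>
        refine (wcomm1 hμ α hA.1 (hw.pd j) (fun i => (h1.pd i).low (by omega)) (h4.pd j)
          (by omega)).trans ?_
        gcongr
        · norm_num
        · exact k.le_succ
        · exact le_add_of_nonneg_right p2
      | succ b =>
        refine (ih (hw.pd j) (by omega) (h2.low (Nat.le_succ _)) (h3.pd j) (h4.pd j)
          (by omega)).trans ?_
        gcongr
        · norm_num
        · exact k.le_succ

/-- A coefficient which is bounded by the weight. -/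
theorem prodW (hμ : Continuous μ) {k : ℕ} {A : X3 → V →L[ℝ] V'} {w : X3 → V} {s n : ℝ}
    (hA : ContDiff ℝ ∞ A) (hw : Good w) (hs : 0 ≤ s)
    (h : ∀ α : List (Fin 3), α.length ≤ k → ∀ x, ‖pdl α A x‖ ≤ s * |μ x|) (h' : NkW μ k w n) :
    Nk k (ap A w) (2 ^ k * (s * n)) := by
  have h0 : ∀ {k : ℕ} {A : X3 → V →L[ℝ] V'} {w : X3 → V}, ContDiff ℝ ∞ A → Good w →
      (∀ x, ‖A x‖ ≤ s * |μ x|) → NkW μ k w n → n2 (ap A w) ≤ s * n := fun hA hw h h' => by
    refine (n2_mono (hw.ap_right hA).c0 (c0_mw hμ hw.c0) hs fun x => ?_).trans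
      (mul_le_mul_of_nonneg_left h'.zero hs)
    rw [mw, norm_smul, ← mul_assoc]
    exact (ContinuousLinearMap.le_opNorm _ _).trans
      (mul_le_mul_of_nonneg_right (h x) (norm_nonneg _))
  induction k generalizing A w with
  | zero => exact nk_zero (by simpa using h0 hA hw (h [] le_rfl) h')
  | succ k ih =>
    refine nk_succ ((h0 hA hw (h [] (Nat.zero_le _)) h').trans (le_mul_of_one_le_left
      (mul_nonneg hs h'.nonneg) (one_le_two_pow _))) fun j => ?_
    rw [pd_ap j hA hw.1]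
    have h1 := ih (pd_sm j hA) hw (fun α hα => h (j :: α) (by simpa using hα)) (h'.low k.le_succ)
    have h2 := ih hA (hw.pd j) (fun α hα => h α (hα.trans k.le_succ)) (h'.pd j)
    exact (h1.add h2 (hw.ap_right (pd_sm j hA)) ((hw.pd j).ap_right hA)).mono le_rfl
      (le_of_eq (by ring))

/-- Derivatives in constant directions commute. -/
theorem fd_comm {E : Type} [NormedAddCommGroup E] [NormedSpace ℝ E] {f : E → V}
    (hf : ContDiff ℝ ∞ f) (u v p : E) :
    fderiv ℝ (fun q => fderiv ℝ f q v) p u = fderiv ℝ (fun q => fderiv ℝ f q u) p v := by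
  have h1 : DifferentiableAt ℝ (fderiv ℝ f) p :=
    (hf.fderiv_right (m := ∞) (by simp)).differentiable (by simp) p
  have h2 := (hf.contDiffAt (x := p)).isSymmSndFDerivAt
    (by rw [minSmoothness_of_isRCLikeNormedField]; exact WithTop.coe_le_coe.2 le_top)
  rw [fderiv_clm_apply h1 (differentiableAt_const _), fderiv_clm_apply h1 (differentiableAt_const _)]
  simpa using h2 u v

theorem pd_comm (i j : Fin 3) {f : X3 → V} (hf : ContDiff ℝ ∞ f) :
    pd i (pd j f) = pd j (pd i f) := funext fun x => fd_comm hf (e i) (e j) x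

theorem pdl_pd (α : List (Fin 3)) (j : Fin 3) {f : X3 → V} (hf : ContDiff ℝ ∞ f) :
    pdl α (pd j f) = pd j (pdl α f) := by
  induction α generalizing f with
  | nil => rfl
  | cons i α ih => simp only [pdl]; rw [pd_comm i j hf, ih (pd_sm i hf)]

theorem tsupp_pdl (α : List (Fin 3)) (f : X3 → V) : tsupport (pdl α f) ⊆ tsupport f := by
  induction α generalizing f with
  | nil => exact subset_rfl
  | cons j α ih => exact (ih _).trans (tsupport_fderiv_apply_subset ℝ (e j))

end Vale.Agent.P354X
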