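import Vale.Agent.P354X.Xen2
import Vale.Agent.P354X.Wt

open scoped ContDiff
open MeasureTheory Set Filter Topology

namespace Vale.Agent.P354X

open Vale.Agent.P354H Vale.Agent.P354C Vale.Agent.P354A

/-- The localising weight. -/
noncomputable def ps (c x0 y : ℝ) : ℝ := (Real.cosh (c * (y - x0)))⁻¹

theorem ps_pos (c x0 y : ℝ) : 0 < ps c x0 y := inv_pos.2 (Real.cosh_pos _)

theorem ps_cd (c x0 : ℝ) : ContDiff ℝ 1 (ps c x0) :=
  (Real.contDiff_cosh.comp (contDiff_const.mul (contDiff_id.sub contDiff_const))).inv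
    fun _ => (Real.cosh_pos _).ne'

theorem ps_der {c : ℝ} (hc : 0 ≤ c) (x0 y : ℝ) : |deriv (ps c x0) y| ≤ c * ps c x0 y := by
  have h := ((((hasDerivAt_id y).sub_const x0).const_mul c).cosh).inv (Real.cosh_pos _).ne'
  rw [show deriv (ps c x0) y = _ from h.deriv]
  have hp := Real.cosh_pos (c * (y - x0))
  have hs : |Real.sinh (c * (y - x0))| ≤ Real.cosh (c * (y - x0)) := by
    rw [Real.abs_sinh, ← Real.cosh_abs]
    exact (Real.sinh_lt_cosh _).le
  simp only [id, mul_one, ps]
  rw [abs_div, abs_neg, abs_mul, abs_of_nonneg hc, abs_of_pos (pow_pos hp 2),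
    div_le_iff₀ (pow_pos hp 2)]
  refine (mul_le_mul_of_nonneg_right hs hc).trans (le_of_eq ?_)
  field_simp

theorem wt_le {k : ℝ} {a A : ℝ → ℝ} {A0 : ℝ} (h : Wt k a A A0) (x y : ℝ) :
    a y ≤ a x * Real.exp (k / 64 * |y - x|) := by
  choose a' h1 h2 using h.der
  have h3 := Convex.norm_image_sub_le_of_norm_hasDerivWithin_le (𝕜 := ℝ) (s := univ)
    (f := fun y => Real.log (a y)) (f' := fun y => a' y / a y) (C := k / 64)
    (fun y _ => ((h1 y).log (h.pos y).ne').hasDerivWithinAt)
    (fun y _ => by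
      rw [Real.norm_eq_abs, abs_div, abs_of_pos (h.pos y), div_le_iff₀ (h.pos y)]
      exact h2 y) convex_univ (mem_univ x) (mem_univ y)
  rw [← Real.exp_log (h.pos y), ← Real.exp_log (h.pos x), ← Real.exp_add, Real.exp_le_exp]
  have := (le_abs_self _).trans h3
  rw [Real.norm_eq_abs] at this
  linarith

theorem cosh_ge (y : ℝ) : 1 + (y / 2) ^ 2 ≤ Real.cosh y := by
  rw [← Real.cosh_abs, Real.cosh_eq]
  have h1 := Real.quadratic_le_exp_of_nonneg (abs_nonneg y)
  have h2 := Real.add_one_le_exp (-|y|)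
  rw [sq_abs] at h1
  linarith

theorem wt_ps {k : ℝ} {a A : ℝ → ℝ} {A0 : ℝ} (hk : 0 < k) (h : Wt k a A A0) (x y : ℝ) :
    ps (k / 16) x y * a y ^ 2 ≤ 2 * a x ^ 2 * (1 + (k / 64 * (y - x)) ^ 2)⁻¹ := by
  have h1 := pow_le_pow_left₀ (h.pos y).le (wt_le h x y) 2
  have h2 : Real.exp (k / 64 * |y - x|) ^ 2 ≤ 2 * Real.cosh (k / 32 * (y - x)) := by
    rw [← Real.cosh_abs, Real.cosh_eq, ← Real.exp_nat_mul, abs_mul,
      abs_of_pos (show 0 < k / 32 by positivity)]
    have := Real.exp_pos (-(k / 32 * |y - x|))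
    rw [show ((2 : ℕ) : ℝ) * (k / 64 * |y - x|) = k / 32 * |y - x| by push_cast; ring]
    linarith
  have h3 : Real.cosh (k / 32 * (y - x)) ^ 2 ≤ Real.cosh (k / 16 * (y - x)) := by
    rw [show k / 16 * (y - x) = 2 * (k / 32 * (y - x)) by ring, Real.cosh_two_mul]
    exact le_add_of_nonneg_right (sq_nonneg _)
  have h4 := cosh_ge (k / 32 * (y - x))
  rw [show k / 32 * (y - x) / 2 = k / 64 * (y - x) by ring] at h4
  have hp := Real.cosh_pos (k / 32 * (y - x))
  rw [mul_pow] at h1
  have h5 := h1.trans (mul_le_mul_of_nonneg_left h2 (sq_nonneg _))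
  rw [ps, inv_mul_le_iff₀ (Real.cosh_pos _), ← mul_assoc, ← div_eq_mul_inv,
    le_div_iff₀ (by positivity)]
  have h6 := mul_le_mul h5 h4 (by positivity) (by positivity)
  have h7 := mul_le_mul_of_nonneg_right h3 (show 0 ≤ 2 * a x ^ 2 by positivity)
  nlinarith

/-- The integrable majorant. -/
noncomputable def maj (c r : ℝ) (y : X3) : ℝ :=
  (1 + (c * y.1) ^ 2)⁻¹ * indicator (Icc (-r) r ×ˢ Icc (-r) r) (fun _ => (1 : ℝ)) y.2

theorem maj_int {c : ℝ} (hc : c ≠ 0) (r : ℝ) : Integrable (maj c r) :=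
  (integrable_inv_one_add_sq.comp_mul_left' hc).mul_prod
    ((integrable_indicator_iff (measurableSet_Icc.prod measurableSet_Icc)).2
      (integrableOn_const (isCompact_Icc.prod isCompact_Icc).measure_lt_top.ne))

theorem maj_nn (c r : ℝ) (y : X3) : 0 ≤ maj c r y :=
  mul_nonneg (by positivity) (indicator_nonneg (fun _ _ => zero_le_one) _)

theorem sq_le_en {n : ℕ} (w : ℝ × X3 → Ix → ℝ) (p : ℝ × X3) (i : Ix) {α : List (Fin 3)}
    (hα : α.length ≤ n) : dxl α (cmp w i) p ^ 2 ≤ en n w p :=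
  (le_lsum (f := fun α => dxl α (cmp w i) p ^ 2) (fun _ => sq_nonneg _) (mem_words.2 hα)).trans
    (Finset.single_le_sum (f := fun i => ((words n).map fun α => dxl α (cmp w i) p ^ 2).sum)
      (fun _ _ => lsum_nn _ fun _ _ => sq_nonneg _) (Finset.mem_univ i))

theorem en_le {n : ℕ} {w : ℝ × X3 → Ix → ℝ} {p : ℝ × X3} {c : ℝ}
    (h : ∀ i, ∀ α : List (Fin 3), α.length ≤ n → dxl α (cmp w i) p ^ 2 ≤ c) :
    en n w p ≤ Fintype.card Ix * ((words n).length * c) := by
  refine (Finset.sum_le_sum fun i _ => lsum_le _ fun α hα => h i α (mem_words.1 hα)).trans ?_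
  simp

/-- Sobolev embedding with the localising weight. -/
theorem wsob (c : ℝ) : ∃ K : ℝ, 0 ≤ K ∧ ∀ (f : X3 → ℝ) (x0 : X3) (n : ℝ), Good f →
    NkW (fun y => √(ps c x0.1 y.1)) 3 f n → |f x0| ≤ K * n := by
  let χ : ContDiffBump (0 : X3) := ⟨1 / 2, 1, by norm_num, by norm_num⟩
  have g1 : Good (χ : X3 → ℝ) := ⟨χ.contDiff, χ.hasCompactSupport⟩
  obtain ⟨c1, h1⟩ := ex_nk (χ : X3 → ℝ) (3 + 3)
  have h2 := h1.sb g1
  have h3 := h2.nonneg
  refine ⟨3 * (2 ^ 3 * (3 * c1 * √(Real.cosh c))), by positivity, fun f x0 n hf hn => ?_⟩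
  have g2 := (g1.tr (-x0)).clm (ContinuousLinearMap.lsmul ℝ ℝ : ℝ →L[ℝ] ℝ →L[ℝ] ℝ)
  have h4 := prodW (s := 3 * c1 * √(Real.cosh c))
    (Real.continuous_sqrt.comp ((ps_cd c x0.1).continuous.comp continuous_fst)) g2.1 hf
    (by positivity) (fun α hα y => ?_) hn
  · have h5 := sob0 (hf.ap_right g2.1) h4 x0
    have h6 : χ 0 = 1 := χ.one_of_mem_closedBall (by simp [χ])
    simp only [ap, tr, add_neg_cancel, h6, ContinuousLinearMap.lsmul_apply, one_smul,
      Real.norm_eq_abs] at h5
    exact h5.trans (le_of_eq (by ring))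
  rw [pdl_clm _ α (g1.tr (-x0)).1, pdl_tr]
  refine ((ContinuousLinearMap.le_opNorm _ _).trans (mul_le_of_le_one_left (norm_nonneg _)
    ContinuousLinearMap.opNorm_lsmul_le)).trans ?_
  by_cases hy : y + -x0 ∈ tsupport (pdl α (χ : X3 → ℝ))
  · have h5 := tsupp_pdl α _ hy
    rw [χ.tsupport_eq, mem_closedBall_zero_iff] at h5
    have h6 : |y.1 - x0.1| ≤ 1 := (norm_fst_le (y + -x0)).trans h5
    refine (h2 α hα _).trans ?_
    rw [mul_assoc (3 * c1), Function.comp_apply, abs_of_nonneg (Real.sqrt_nonneg _),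
      ← Real.sqrt_mul (Real.cosh_pos c).le]
    refine le_mul_of_one_le_right h3 (Real.one_le_sqrt.2 ?_)
    rw [Function.comp_apply, ps, ← div_eq_mul_inv, one_le_div (Real.cosh_pos _), Real.cosh_le_cosh,
      abs_mul]
    exact mul_le_of_le_one_right (abs_nonneg _) h6
  · rw [tr, image_eq_zero_of_notMem_tsupport hy, norm_zero]
    positivity

theorem xpt (hx : XEN) : XPT := by
  intro k a A A0 r m hk ha hm
  obtain ⟨θ, C, hθ, hC, h⟩ := hx k (m + 4) m hk (by omega) (by omega)
  obtain ⟨K0, hK0, hs⟩ := wsob (k / 16)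
  set N : ℝ := (Fintype.card Ix : ℝ) * ((words (m + 4)).length : ℝ) with hN
  have hN0 : 0 ≤ N := by positivity
  set I := ∫ y, maj (k / 64) r y with hI
  have hI0 : 0 ≤ I := integral_nonneg (maj_nn _ _)
  refine ⟨θ, K0 * √(C * (N * 2 * I)) + C * N + 1, hθ, by positivity,
    fun K w T hK hw hlo => ⟨fun ε hε hd p hp i α hα => ?_, fun R hR t ht i α hα => ?_⟩⟩
  · have h1 := h K w T hK hw hlo _ (ps_cd (k / 16) p.2.1) (fun y => (ps_pos _ _ y).le)
      (ps_der (by positivity) _) p.1 hp
    have hi := fun t => en_id (ps_cd (k / 16) p.2.1) hw.sm hw.cs (m + 4) t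
    have hm := haveI := rinv
      (maj_int (show k / 64 ≠ 0 by positivity) r).comp_add_right ((-p.2.1, 0) : X3)
    have h2 := integral_mono (hi 0) (hm.const_mul (N * 2 * (ε * a p.2.1) ^ 2)) fun y => by
      have hp := (ps_pos (k / 16) p.2.1 y.1).le
      by_cases hy : y.2 ∈ Icc (-r) r ×ˢ Icc (-r) r
      · have e1 := en_le (n := m + 4) (w := w) (p := (0, y)) (c := (ε * a y.1) ^ 2) fun i β hβ => by
          have := hd.bd i β hβ y
          rw [show cmp (sl w 0) i = sl (cmp w i) 0 from rfl, pdl_sl β (hw.sm i)] at this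
          rw [← sq_abs]
          exact pow_le_pow_left₀ (abs_nonneg _) this 2
        have e2 := mul_le_mul_of_nonneg_left (wt_ps hk ha p.2.1 y.1) (mul_nonneg hN0 (sq_nonneg ε))
        refine (mul_le_mul_of_nonneg_left e1 hp).trans ?_
        simp only [maj, Prod.fst_add, Prod.snd_add, add_zero, indicator_of_mem hy, mul_one,
          ← sub_eq_add_neg]
        refine le_trans (le_of_eq (by rw [hN]; ring)) (e2.trans (le_of_eq (by ring)))
      · have e1 := en_le (n := m + 4) (w := w) (p := (0, y)) (c := 0) fun i β _ => by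
          have e2 : tsupport (sl (cmp w i) 0) ⊆ {y : X3 | y.2 ∈ Icc (-r) r ×ˢ Icc (-r) r} := by
            refine closure_minimal (fun z hz => ?_)
              ((isClosed_Icc.prod isClosed_Icc).preimage continuous_snd)
            by_contra c
            refine hz (congrFun (hd.supp z ?_) i)
            rwa [mem_ofPred_eq, mem_prod, mem_Icc, mem_Icc, ← abs_le, ← abs_le, not_and_or, not_le,
              not_le] at c
          have e3 := image_eq_zero_of_notMem_tsupport fun c => hy (e2 (tsupp_pdl β _ c))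
          rw [pdl_sl β (hw.sm i)] at e3
          exact le_of_eq (by rw [show dxl β (cmp w i) (0, y) = 0 from e3]; simp)
        refine (mul_le_mul_of_nonneg_left e1 hp).trans ?_
        simp only [mul_zero]
        exact mul_nonneg (by positivity) (maj_nn _ _ _)
    rw [integral_const_mul, int_tr _ (maj (k / 64) r), ← hI] at h2
    have h3 := h1.trans (mul_le_mul_of_nonneg_left h2 (by positivity))
    have g1 : Good (sl (cmp w i) p.1) := ⟨sl_sm (hw.sm i) _, P354HU.cs_sl (hw.cs i) _⟩
    have hX : 0 ≤ ε * (ex k (-1) p.1 * a p.2.1) :=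
      mul_nonneg hε (mul_nonneg (Real.exp_pos _).le (ha.pos _).le)
    have h4 := hs _ p.2 (√(C * (N * 2 * I)) * (ε * (ex k (-1) p.1 * a p.2.1))) (g1.pdl α)
      fun β hβ => by
        refine n2_le_of_sq (by positivity) ?_
        refine le_trans (integral_mono (c0_mw (Real.continuous_sqrt.comp
          ((ps_cd _ p.2.1).continuous.comp continuous_fst)) ((g1.pdl α).pdl β).c0).sq (hi p.1)
          fun y => ?_) (h3.trans (le_of_eq ?_))
        · simp only [mw, norm_smul, mul_pow, Real.norm_eq_abs, sq_abs,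
            Real.sq_sqrt (ps_pos _ _ _).le]
          rw [← pdl_append, pdl_sl _ (hw.sm i)]
          exact mul_le_mul_of_nonneg_left (sq_le_en w _ i (by rw [List.length_append]; omega))
            (ps_pos _ _ _).le
        · rw [mul_pow (√_), Real.sq_sqrt (by positivity), show k / 8 * p.1 =
            -(-1 * k / 16) * p.1 + -(-1 * k / 16) * p.1 by ring, Real.exp_add, ex]
          ring
    rw [pdl_sl α (hw.sm i)] at h4
    refine le_trans h4 ?_
    rw [← mul_assoc, mul_assoc _ ε]
    refine mul_le_mul_of_nonneg_right ?_ hX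
    linarith [mul_nonneg hC.le hN0]
  · have h1 := h K w T hK hw hlo (fun _ => 1) contDiff_const (fun _ => zero_le_one)
      (fun y => by simp; positivity) t ht
    have hi := fun t => en_id (ψ := fun _ => 1) contDiff_const hw.sm hw.cs (m + 4) t
    simp only [one_mul] at h1 hi
    have g := fun i t => (show Good (sl (cmp w i) t) from
      ⟨sl_sm (hw.sm i) _, P354HU.cs_sl (hw.cs i) _⟩)
    have hj : ∀ i t β, Integrable fun y => dxl β (cmp w i) (t, y) ^ 2 := fun i t β => by
      have := ((g i t).pdl β).c0.sq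
      rw [pdl_sl β (hw.sm i)] at this
      simpa [sl] using this
    have hR' : ∀ i, ∀ β : List (Fin 3), β.length ≤ m + 4 →
        ∫ y, dxl β (cmp w i) (0, y) ^ 2 ≤ R := fun i β hβ => by
      have := hR i β hβ
      rw [show cmp (sl w 0) i = sl (cmp w i) 0 from rfl, pdl_sl β (hw.sm i)] at this
      simpa [sl] using this
    have hR0 : 0 ≤ R := (integral_nonneg fun _ => sq_nonneg _).trans (hR' i [] (by simp))
    have hl : ∀ (i : Ix) (l : List (List (Fin 3))), (∀ β ∈ l, β.length ≤ m + 4) →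
        Integrable (fun y => (l.map fun β => dxl β (cmp w i) (0, y) ^ 2).sum) ∧
        ∫ y, (l.map fun β => dxl β (cmp w i) (0, y) ^ 2).sum ≤ l.length * R := by
      intro i l hl
      induction l with
      | nil => simp
      | cons β l ih =>
        obtain ⟨a1, a2⟩ := ih fun γ hγ => hl γ (List.mem_cons_of_mem _ hγ)
        simp only [List.map_cons, List.sum_cons, List.length_cons]
        refine ⟨(hj i 0 β).add a1, ?_⟩
        rw [integral_add (hj i 0 β) a1]
        push_cast
        linarith [hR' i β (hl β List.mem_cons_self)]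
    have h2 : ∫ y, en (m + 4) w (0, y) ≤ N * R := by
      unfold en
      rw [integral_finsetSum _ fun i _ => (hl i _ fun β => mem_words.1).1]
      refine (Finset.sum_le_sum fun i _ => (hl i _ fun β => mem_words.1).2).trans (le_of_eq ?_)
      simp [hN, mul_assoc]
    have h3 := integral_mono (hj i t α) (hi t) fun y => sq_le_en w (t, y) i hα
    rw [show cmp (sl w t) i = sl (cmp w i) t from rfl, pdl_sl α (hw.sm i)]
    simp only [sl, Real.norm_eq_abs, sq_abs]
    refine h3.trans (h1.trans ((mul_le_mul_of_nonneg_left h2 (by positivity)).trans ?_))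
    have h4 : Real.exp (k / 8 * t) ≤ Real.exp (k * t) :=
      Real.exp_le_exp.2 (mul_le_mul_of_nonneg_right (by linarith) ht.1)
    have h5 : C * N ≤ K0 * √(C * (N * 2 * I)) + C * N + 1 := by
      have : 0 ≤ K0 * √(C * (N * 2 * I)) := by positivity
      linarith
    have h6 := mul_le_mul_of_nonneg_right
      (mul_le_mul h5 h4 (Real.exp_pos _).le (by positivity)) hR0
    exact le_trans (le_of_eq (by ring)) h6

end Vale.Agent.P354X
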