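import Vale.Agent.P354H.Defs

open scoped ContDiff
open MeasureTheory Set Filter Topology

namespace Vale.Agent.P354X

open Vale.Agent.P354H

/-- All letters of the word are in Γ. -/
def In (Γ : Set (Fin 3)) (α : List (Fin 3)) : Prop := ∀ i ∈ α, i ∈ Γ

section
variable {V : Type} [NormedAddCommGroup V] [NormedSpace ℝ V]

/-- The weighted L2 norm. -/
noncomputable def wn {V : Type} [NormedAddCommGroup V] (ψ : X3 → ℝ) (f : X3 → V) : ℝ :=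
  √(∫ x, ψ x * ‖f x‖ ^ 2)

/-- Derivatives of order at most k in the directions Γ are bounded by c on D. -/
def SbG (Γ : Set (Fin 3)) (D : Set X3) (k : ℕ) (f : X3 → V) (c : ℝ) : Prop :=
  0 ≤ c ∧ ∀ α, In Γ α → α.length ≤ k → ∀ x ∈ D, ‖pdl α f x‖ ≤ c

/-- The weighted L2 norms of the derivatives of order at most k in the directions Γ are bounded
by c. -/
def NkG (Γ : Set (Fin 3)) (ψ : X3 → ℝ) (k : ℕ) (f : X3 → V) (c : ℝ) : Prop :=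
  ∀ α, In Γ α → α.length ≤ k → wn ψ (pdl α f) ≤ c

end

/-- Crude energy estimate for the nonlinear system, pointwise form. L is a change of scale which
keeps the principal part symmetric; m t is the growth rate. -/
def EX : Prop :=
  ∀ K J : ℕ, K + 3 ≤ 2 * J → ∃ C0 : ℝ, 0 ≤ C0 ∧ ∀ Λ del : ℝ, 1 ≤ Λ → 0 < del → del ≤ 1 →
    ∃ C1 : ℝ, 0 ≤ C1 ∧
    ∀ (V : Type) [NormedAddCommGroup V] [InnerProductSpace ℝ V] [FiniteDimensional ℝ V]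
      (S : Sys V) (L : V ≃L[ℝ] V) (W : ℝ × X3 → V) (a m : ℝ → ℝ) (T c ε ε' : ℝ),
      S.Sm → (∀ z, ‖L z‖ ≤ ‖z‖ ∧ ‖z‖ ≤ Λ * ‖L z‖) →
      (∀ j p w v z, inner ℝ (L (S.A j p w v)) (L z) = inner ℝ (L v) (L (S.A j p w z))) →
      ContDiff ℝ ∞ W → HasCompactSupport W → (∀ p : ℝ × X3, p.1 ∈ Icc 0 T → S.Holds W p) →
      ContDiff ℝ 1 a → (∀ y, 0 < a y ∧ |deriv a y| ≤ del * a y) → Continuous m →
      (∀ t ∈ Icc 0 T, (∀ x z, inner ℝ (L (S.b (t, x) z)) (L z) ≤ m t * ‖L z‖ ^ 2) ∧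
        (∀ j x z, |inner ℝ (L (S.a j (t, x) z)) (L z)| ≤ c * ‖L z‖ ^ 2) ∧ del * c ≤ m t ∧
        (∀ i j, Sb (K + 2) (pd i (sl (S.a j) t)) (m t / Λ)) ∧
        (∀ i, Sb (K + 2) (pd i (sl S.b t)) (m t / Λ)) ∧
        (∀ j, Sb (K + 3) (sl (S.l j) t) c) ∧ Sb (K + 3) (sl S.q t) c ∧
        Sb J (sl W t) ε' ∧ Λ ^ 2 * c * ε' ≤ m t) →
      (∀ α : List (Fin 3), α.length ≤ K + 3 → ∀ x, ‖pdl α (sl W 0) x‖ ≤ ε * a x.1) →
      ∀ t ∈ Icc 0 T, ∀ α : List (Fin 3), α.length ≤ K → ∀ x,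
        ‖pdl α (sl W t) x‖ ≤ C1 * ε * Real.exp (C0 * ∫ s in (0 : ℝ)..t, m s) * a x.1

/-- Crude energy estimate for a linear system, with a time dependent weight and derivatives in the
directions Γ only; the coefficients of the other directions do not depend on the directions Γ. -/
def EL : Prop :=
  ∀ K : ℕ, ∃ C0 : ℝ, 1 ≤ C0 ∧
    ∀ (V : Type) [NormedAddCommGroup V] [InnerProductSpace ℝ V] [FiniteDimensional ℝ V]
      (Γ : Set (Fin 3)) (A : Fin 3 → ℝ × X3 → V →L[ℝ] V) (B : ℝ × X3 → V →L[ℝ] V)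
      (Z : ℝ × X3 → V) (ψ : ℝ × X3 → ℝ) (m : ℝ → ℝ) (T n : ℝ),
      (∀ j, ContDiff ℝ ∞ (A j)) → ContDiff ℝ ∞ B → (∀ j p, Sym (A j p)) →
      ContDiff ℝ ∞ Z → HasCompactSupport Z →
      (∀ p : ℝ × X3, p.1 ∈ Icc 0 T → dt Z p = ∑ j, A j p (dx j Z p) + B p (Z p)) →
      ContDiff ℝ 1 ψ → (∀ p, 0 ≤ ψ p) → Continuous m →
      (∀ t ∈ Icc 0 T,
        (∀ x z, dt ψ (t, x) * ‖z‖ ^ 2 - ∑ j, dx j ψ (t, x) * inner ℝ z (A j (t, x) z) ≤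
          m t * (ψ (t, x) * ‖z‖ ^ 2)) ∧
        (∀ x, ψ (t, x) ≠ 0 → ∀ z, inner ℝ z (B (t, x) z) ≤ m t * ‖z‖ ^ 2 ∧
          ∀ j, ‖dx j (A j) (t, x)‖ ≤ m t) ∧
        (∀ i ∈ Γ, ∀ j, SbG Γ {x | ψ (t, x) ≠ 0} K (pd i (sl (A j) t)) (m t) ∧
          (j ∉ Γ → pd i (sl (A j) t) = 0)) ∧
        ∀ i ∈ Γ, SbG Γ {x | ψ (t, x) ≠ 0} K (pd i (sl B t)) (m t)) →
      NkG Γ (sl ψ 0) (K + 1) (sl Z 0) n →
      ∀ t ∈ Icc 0 T, NkG Γ (sl ψ t) (K + 1) (sl Z t)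
        (C0 * Real.exp (C0 * ∫ s in (0 : ℝ)..t, m s) * n)

end Vale.Agent.P354X
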