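import Vale.Agent.P354A.Defs
import Vale.Agent.P354HU.Uniq
import Vale.Agent.P354HL.Smooth

open scoped ContDiff
open MeasureTheory Set Filter Topology

namespace Vale.Agent.P354X

open Vale.Agent.P354H Vale.Agent.P354C Vale.Agent.P354A
open Vale.Agent.P354HL (pd_sl dx_sm)

/-- The time derivative of f is h up to a divergence. -/
structure Idn (f h : ℝ × X3 → ℝ) : Prop where
  cd : ContDiff ℝ 1 f
  cs : HasCompactSupport f
  ex : ∃ g : Fin 3 → ℝ × X3 → ℝ, (∀ j, ContDiff ℝ 1 (g j) ∧ HasCompactSupport (g j)) ∧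
    ∀ p, dt f p = ∑ j, dx j (g j) p + h p

theorem fv_add {f g : ℝ × X3 → ℝ} (hf : ContDiff ℝ 1 f) (hg : ContDiff ℝ 1 g) (p v : ℝ × X3) :
    fderiv ℝ (fun q => f q + g q) p v = fderiv ℝ f p v + fderiv ℝ g p v := by
  rw [fderiv_fun_add (hf.differentiable one_ne_zero p) (hg.differentiable one_ne_zero p)]
  rfl

theorem fv_mul {f g : ℝ × X3 → ℝ} (hf : ContDiff ℝ 1 f) (hg : ContDiff ℝ 1 g) (p v : ℝ × X3) :
    fderiv ℝ (fun q => f q * g q) p v = fderiv ℝ f p v * g p + f p * fderiv ℝ g p v := by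
  rw [fderiv_fun_mul (hf.differentiable one_ne_zero p) (hg.differentiable one_ne_zero p)]
  simp only [add_apply, smul_apply, smul_eq_mul]
  ring

theorem fv_cmul (c : ℝ) {g : ℝ × X3 → ℝ} (hg : ContDiff ℝ 1 g) (p v : ℝ × X3) :
    fderiv ℝ (fun q => c * g q) p v = c * fderiv ℝ g p v := by
  rw [fv_mul contDiff_const hg]
  simp

theorem fv_psi {ψ : ℝ → ℝ} (h : ContDiff ℝ 1 ψ) (p v : ℝ × X3) :
    fderiv ℝ (fun q : ℝ × X3 => ψ q.2.1) p v = deriv ψ p.2.1 * v.2.1 := by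
  have h1 := (h.differentiable one_ne_zero p.2.1).hasDerivAt.comp_hasFDerivAt p
    (hasFDerivAt_snd.fst (𝕜 := ℝ) (f₂ := fun q : ℝ × X3 => q.2))
  rw [show fderiv ℝ (fun q : ℝ × X3 => ψ q.2.1) p = _ from h1.fderiv]
  simp

theorem Idn.zero : Idn (fun _ => 0) (fun _ => 0) :=
  ⟨contDiff_const, HasCompactSupport.zero, fun _ _ => 0,
    fun _ => ⟨contDiff_const, HasCompactSupport.zero⟩, fun p => by simp [dt, dx]⟩

theorem Idn.add {f f' h h' : ℝ × X3 → ℝ} (a : Idn f h) (b : Idn f' h') :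
    Idn (fun p => f p + f' p) (fun p => h p + h' p) := by
  obtain ⟨g, g1, g2⟩ := a.ex
  obtain ⟨g', g1', g2'⟩ := b.ex
  refine ⟨a.cd.add b.cd, a.cs.add b.cs, fun j p => g j p + g' j p,
    fun j => ⟨(g1 j).1.add (g1' j).1, (g1 j).2.add (g1' j).2⟩, fun p => ?_⟩
  have e1 := g2 p
  have e2 := g2' p
  simp only [dt, dx, fv_add a.cd b.cd, fv_add (g1 _).1 (g1' _).1, Finset.sum_add_distrib] at *
  linarith

theorem Idn.congr {f f' h h' : ℝ × X3 → ℝ} (a : Idn f h) (e1 : ∀ p, f' p = f p)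
    (e2 : ∀ p, h' p = h p) : Idn f' h' := by
  rw [funext e1, funext e2]; exact a

theorem Idn.lsum {ι : Type} (l : List ι) {f h : ι → ℝ × X3 → ℝ} (a : ∀ i ∈ l, Idn (f i) (h i)) :
    Idn (fun p => (l.map fun i => f i p).sum) (fun p => (l.map fun i => h i p).sum) := by
  induction l with
  | nil => exact Idn.zero
  | cons i l ih =>
    exact (a i List.mem_cons_self).add (ih fun j hj => a j (List.mem_cons_of_mem _ hj))

theorem Idn.sum {ι : Type} (s : Finset ι) {f h : ι → ℝ × X3 → ℝ} (a : ∀ i, Idn (f i) (h i)) :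
    Idn (fun p => ∑ i ∈ s, f i p) (fun p => ∑ i ∈ s, h i p) := by
  classical
  induction s using Finset.induction_on with
  | empty => exact Idn.zero
  | insert i s hi ih =>
    exact ((a i).add ih).congr (fun p => Finset.sum_insert hi) fun p => Finset.sum_insert hi

theorem Idn.base {f : ℝ × X3 → ℝ} (h1 : ContDiff ℝ 1 f) (h2 : HasCompactSupport f) :
    Idn f (dt f) :=
  ⟨h1, h2, fun _ _ => 0, fun _ => ⟨contDiff_const, HasCompactSupport.zero⟩, fun p => by simp [dx]⟩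

theorem Idn.div {G : ℝ × X3 → ℝ} (h1 : ContDiff ℝ 1 G) (h2 : HasCompactSupport G) (j : Fin 3) :
    Idn (fun _ => 0) (dx j G) := by
  refine ⟨contDiff_const, HasCompactSupport.zero, fun i p => (if i = j then -1 else 0) * G p,
    fun i => ⟨contDiff_const.mul h1, h2.mul_left⟩, fun p => ?_⟩
  simp only [dt, dx, fv_cmul _ h1]
  simp

theorem Idn.energy {f h : ℝ × X3 → ℝ} (a : Idn f h) {T L t : ℝ}
    (H : ∀ p : ℝ × X3, p.1 ∈ Icc 0 T → h p ≤ L * f p) (ht : t ∈ Icc 0 T) :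
    ∫ x, f (t, x) ≤ Real.exp (L * t) * ∫ x, f (0, x) := by
  obtain ⟨g, g1, g2⟩ := a.ex
  have h1 := P354HU.energy a.cd a.cs (fun j => (g1 j).1) (fun j => (g1 j).2)
    (fun p hp => (g2 p).trans_le (add_le_add_right (H p hp) _)) ht
  rw [mul_zero, Real.exp_zero, one_mul, neg_mul, Real.exp_neg, inv_mul_le_iff₀ (Real.exp_pos _)] at h1
  exact h1

/-- The scale of the unknowns. -/
noncomputable def rr (ν : ℝ) (i : Ix) : ℝ := if isW i then 1 else ν

/-- The first order terms with variable coefficients. -/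
def fl (i : Ix) : List (ℤ × Ix × Fin 3 × Ix) := fb i ++ fa i

theorem fl_ne : ∀ i ∈ Ix.all, ∀ t ∈ fl i, t.2.2.1 ≠ 0 := by decide

theorem all_mem (i : Ix) : i ∈ Ix.all := by cases i <;> decide

theorem sum_Ix (f : Ix → ℝ) : ∑ i, f i = (Ix.all.map f).sum :=
  List.sum_toFinset f (by decide : Ix.all.Nodup)

theorem fl_symm (ν : ℝ) (U z : Ix → ℝ) (y : Fin 3 → Ix → ℝ) :
    ∑ i, rr ν i ^ 2 * ((fl i).map fun t => (t.1 : ℝ) * (U t.2.1 * (y t.2.2.1 i * z t.2.2.2))).sum =
    ∑ i, rr ν i ^ 2 *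
      ((fl i).map fun t => (t.1 : ℝ) * (U t.2.1 * (z i * y t.2.2.1 t.2.2.2))).sum := by
  simp only [sum_Ix, Ix.all, fl, fb, fa, rr, isW, cL, angN, angL, Pc, List.map_cons, List.map_nil,
    List.sum_cons, List.sum_nil, List.cons_append, List.nil_append, List.append_nil,
    List.flatMap_cons, List.flatMap_nil, Matrix.cons_val_zero, Matrix.cons_val_one, if_true,
    Bool.false_eq_true, if_false]
  push_cast
  ring

theorem one_word (k ν : ℝ) {ψ : ℝ → ℝ} {U : ℝ × X3 → Ix → ℝ} {z : Ix → ℝ × X3 → ℝ}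
    (hψ : ContDiff ℝ 1 ψ) (hU : ∀ i, ContDiff ℝ 1 (cmp U i)) (hz : ∀ i, ContDiff ℝ 1 (z i))
    (hz' : ∀ i, HasCompactSupport (z i)) :
    Idn (fun p => ∑ i, ψ p.2.1 * (rr ν i ^ 2 * c0 i * (z i p * z i p)))
      (fun p => ∑ i, (2 * ψ p.2.1 * (rr ν i ^ 2 * (z i p *
          (prin k (U p) z i p - dmp i * (k / 2) * z i p))) +
        deriv ψ p.2.1 * (rr ν i ^ 2 * c1 i * (z i p * z i p)) +
        ψ p.2.1 * (rr ν i ^ 2 * ((fl i).map fun t =>
          (t.1 : ℝ) * (dx t.2.2.1 (cmp U t.2.1) p * (z i p * z t.2.2.2 p))).sum))) := by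
  have hp : ContDiff ℝ 1 fun p : ℝ × X3 => ψ p.2.1 := hψ.comp (by fun_prop)
  have hzz := fun i i' => (hz i).mul (hz i')
  have hcs : ∀ i i', HasCompactSupport fun p => z i p * z i' p := fun i i' => (hz' i).mul_right
  have h1 := fun i => ((Idn.base (hp.mul ((hzz i i).const_smul (rr ν i ^ 2 * c0 i)))
    ((hcs i i).mul_left (f := fun _ => rr ν i ^ 2 * c0 i)).mul_left).add
    (Idn.div (hp.mul ((hzz i i).const_smul (rr ν i ^ 2 * c1 i)))
      ((hcs i i).mul_left (f := fun _ => rr ν i ^ 2 * c1 i)).mul_left 0)).add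
    (Idn.lsum (fl i) fun t _ => Idn.div (hp.mul ((((hU t.2.1).mul
      (hzz i t.2.2.2)).const_smul (t.1 : ℝ)).const_smul (rr ν i ^ 2)))
      ((((hcs i t.2.2.2).mul_left (f := cmp U t.2.1)).mul_left (f := fun _ => (t.1 : ℝ))).mul_left
        (f := fun _ => rr ν i ^ 2)).mul_left t.2.2.1)
  refine (Idn.sum Finset.univ h1).congr (fun p => by simp) fun p => ?_
  have e1 : ∀ i, ((fl i).map fun t => dx t.2.2.1 (fun p => ψ p.2.1 * (rr ν i ^ 2 • (t.1 : ℝ) •
      (cmp U t.2.1 p * (z i p * z t.2.2.2 p)))) p).sum = ψ p.2.1 * (rr ν i ^ 2 *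
      (((fl i).map fun t => (t.1 : ℝ) * (dx t.2.2.1 (cmp U t.2.1) p * (z i p * z t.2.2.2 p))).sum +
      ((fl i).map fun t => (t.1 : ℝ) * (U p t.2.1 * (dx t.2.2.1 (z i) p * z t.2.2.2 p))).sum +
      ((fl i).map fun t => (t.1 : ℝ) * (U p t.2.1 * (z i p * dx t.2.2.1 (z t.2.2.2) p))).sum)) := by
    intro i
    rw [← List.sum_map_add, ← List.sum_map_add, ← List.sum_map_mul_left, ← List.sum_map_mul_left]
    refine congrArg _ (List.map_congr_left fun t ht => ?_)
    have h0 : (e t.2.2.1).1 = 0 := by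
      have := fl_ne i (all_mem i) t ht
      generalize t.2.2.1 = j at this
      fin_cases j <;> simp_all [e]
    simp only [dx, smul_eq_mul]
    rw [fv_mul hp (contDiff_const.mul (contDiff_const.mul ((hU _).mul (hzz _ _)))), fv_psi hψ,
      fv_cmul _ (contDiff_const.mul ((hU _).mul (hzz _ _))), fv_cmul _ ((hU _).mul (hzz _ _)),
      fv_mul (hU _) (hzz _ _), fv_mul (hz _) (hz _), h0]
    simp only [P354A.cmp]
    ring
  have e2 : ∀ (i : Ix) (c : ℝ) (v : ℝ × X3), fderiv ℝ (fun p => ψ p.2.1 * (c • (z i p * z i p))) p v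
      = deriv ψ p.2.1 * v.2.1 * (c * (z i p * z i p)) +
        2 * ψ p.2.1 * (c * (z i p * fderiv ℝ (z i) p v)) := by
    intro i c v
    simp only [smul_eq_mul]
    rw [fv_mul hp (contDiff_const.mul (hzz _ _)), fv_psi hψ, fv_cmul _ (hzz _ _),
      fv_mul (hz _) (hz _)]
    ring
  have e3 : ∀ i, z i p * (top (fb i) (U p) z p + top (fa i) (U p) z p) = ((fl i).map fun t =>
      (t.1 : ℝ) * (U p t.2.1 * (z i p * dx t.2.2.1 (z t.2.2.2) p))).sum := by
    intro i
    rw [top, top, ← List.sum_append, ← List.map_append, ← List.sum_map_mul_left]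
    exact congrArg _ (List.map_congr_left fun t _ => by ring)
  have e4 := fl_symm ν (U p) (fun i => z i p) fun j i => dx j (z i) p
  simp only [e1]
  simp only [dt, dx, e2] at *
  simp only [mul_add, Finset.sum_add_distrib, ← Finset.mul_sum, e4]
  simp only [← e3, Finset.mul_sum, ← Finset.sum_add_distrib]
  refine Finset.sum_congr rfl fun i _ => ?_
  simp only [prin, dt, dx, e, Matrix.cons_val_zero, Prod.fst_zero]
  ring

theorem mem_words {n : ℕ} {α : List (Fin 3)} : α ∈ words n ↔ α.length ≤ n := by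
  induction n generalizing α with
  | zero => simp [words]
  | succ n ih =>
    cases α with
    | nil => simp [words]
    | cons j α => fin_cases j <;> simp [words, ih]

theorem dxl_sm (α : List (Fin 3)) {f : ℝ × X3 → ℝ} (hf : ContDiff ℝ ∞ f) :
    ContDiff ℝ ∞ (dxl α f) := by
  induction α generalizing f with
  | nil => exact hf
  | cons j α ih => exact ih (dx_sm hf j)

theorem dxl_cs (α : List (Fin 3)) {f : ℝ × X3 → ℝ} (hf : HasCompactSupport f) :
    HasCompactSupport (dxl α f) := by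
  induction α generalizing f with
  | nil => exact hf
  | cons j α ih => exact ih (hf.fderiv_apply ℝ ((0, e j) : ℝ × X3))

theorem pdl_sl (α : List (Fin 3)) {f : ℝ × X3 → ℝ} (hf : ContDiff ℝ ∞ f) (t : ℝ) :
    pdl α (sl f t) = sl (dxl α f) t := by
  induction α generalizing f with
  | nil => rfl
  | cons j α ih => simp only [pdl, dxl]; rw [pd_sl hf, ih (dx_sm hf j)]

end Vale.Agent.P354X
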