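import Vale.Agent.P354X.Xen

open scoped ContDiff
open MeasureTheory Set Filter Topology

namespace Vale.Agent.P354X

open Vale.Agent.P354H Vale.Agent.P354C Vale.Agent.P354A

theorem tab1 : ∀ i ∈ Ix.all, 1 ≤ c0 i ∧ c0 i ≤ 2 ∧ -c0 i ≤ c1 i ∧ c1 i ≤ c0 i ∧ 0 ≤ dmp i ∧
    (isW i = true → lin i = []) ∧ ∀ t ∈ lin i, isW t.2 = true := by decide

theorem lsum_le {ι : Type} (l : List ι) {f g : ι → ℝ} (h : ∀ i ∈ l, f i ≤ g i) :
    (l.map f).sum ≤ (l.map g).sum := List.sum_le_sum h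

theorem lsum_nn {ι : Type} (l : List ι) {f : ι → ℝ} (h : ∀ i ∈ l, 0 ≤ f i) :
    0 ≤ (l.map f).sum := List.sum_nonneg (by simpa using h)

theorem le_lsum {ι : Type} {l : List ι} {f : ι → ℝ} (h : ∀ i, 0 ≤ f i) {a : ι} (ha : a ∈ l) :
    f a ≤ (l.map f).sum :=
  List.single_le_sum (by simpa using fun i _ => h i) _ (List.mem_map_of_mem ha)

theorem lsum_sum {ι κ : Type} (l : List ι) (s : Finset κ) (f : ι → κ → ℝ) :
    (l.map fun a => ∑ i ∈ s, f a i).sum = ∑ i ∈ s, (l.map fun a => f a i).sum := by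
  induction l with
  | nil => simp
  | cons a l ih => simp [ih, Finset.sum_add_distrib]

/-- The sums of the absolute values of the coefficients. -/
noncomputable def cl (i : Ix) : ℝ := ((lin i).map fun t => |(t.1 : ℝ)|).sum
noncomputable def cq (i : Ix) : ℝ := ((pairs i).map fun t => |(t.1 : ℝ)|).sum
noncomputable def cf (i : Ix) : ℝ := ((fl i).map fun t => |(t.1 : ℝ)|).sum

theorem cl_nn (i : Ix) : 0 ≤ cl i := lsum_nn _ fun _ _ => abs_nonneg _
theorem cq_nn (i : Ix) : 0 ≤ cq i := lsum_nn _ fun _ _ => abs_nonneg _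
theorem cf_nn (i : Ix) : 0 ≤ cf i := lsum_nn _ fun _ _ => abs_nonneg _

theorem rr_bd {ν : ℝ} (h1 : ν ≤ 1) (i : Ix) : ν ≤ rr ν i ∧ rr ν i ≤ 1 := by
  unfold rr
  split_ifs
  exacts [⟨h1, le_rfl⟩, ⟨le_rfl, h1⟩]

theorem rb_le {ν θ H : ℝ} (h0 : 0 < ν) (h1 : ν ≤ 1) (hθ : 0 ≤ θ) (hH : 0 ≤ H) (n : ℕ) (i : Ix) :
    rr ν i * RB n i (fun _ => θ) (fun _ => θ) (fun j => H / rr ν j) ≤
      (ν * cl i + 2 ^ n * (4 * θ / ν) * cq i) * H := by
  have hr := rr_bd h1
  have hh : ∀ j, H / rr ν j ≤ H / ν := fun j => div_le_div_of_nonneg_left hH h0 (hr j).1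
  have hh0 : ∀ j, 0 ≤ H / rr ν j := fun j => div_nonneg hH (h0.le.trans (hr j).1)
  obtain ⟨-, -, -, -, -, t1, t2⟩ := tab1 i (all_mem i)
  have e1 : rr ν i * ((lin i).map fun t => |(t.1 : ℝ)| * (H / rr ν t.2)).sum ≤ ν * cl i * H := by
    by_cases hw : isW i = true
    · simp [cl, t1 hw]
    · rw [show rr ν i = ν from if_neg hw, mul_assoc, cl, ← List.sum_map_mul_right]
      refine mul_le_mul_of_nonneg_left (lsum_le _ fun t ht => ?_) h0.le
      rw [show rr ν t.2 = 1 from if_pos (t2 t ht), div_one]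
  have e2 : ((pairs i).map fun t => |(t.1 : ℝ)| * (θ * (H / rr ν t.2.2) + H / rr ν t.2.1 * θ +
      θ * (H / rr ν t.2.2) + H / rr ν t.2.1 * θ)).sum ≤ cq i * (4 * θ / ν * H) := by
    rw [cq, ← List.sum_map_mul_right]
    refine lsum_le _ fun t _ => mul_le_mul_of_nonneg_left ?_ (abs_nonneg _)
    have a := mul_le_mul_of_nonneg_left (hh t.2.1) hθ
    have b := mul_le_mul_of_nonneg_left (hh t.2.2) hθ
    have c : 4 * θ / ν * H = 4 * (θ * (H / ν)) := by ring
    linarith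
  have e3 : 0 ≤ cq i * (4 * θ / ν * H) := mul_nonneg (cq_nn i) (by positivity)
  have e4 := mul_le_mul_of_nonneg_left
    (mul_le_mul_of_nonneg_left e2 (show (0 : ℝ) ≤ 2 ^ n by positivity)) (h0.le.trans (hr i).1)
  have e5 := mul_le_of_le_one_left (mul_nonneg (show (0 : ℝ) ≤ 2 ^ n by positivity) e3) (hr i).2
  unfold RB
  rw [mul_add]
  linarith

theorem one_bd {k ν θ H ψ ψ' R π : ℝ} (h0 : 0 < ν) (h1 : ν ≤ 1) (hθ : 0 ≤ θ) (hk : 0 < k)
    (hψ : 0 ≤ ψ) (hψ' : |ψ'| ≤ k / 16 * ψ) (i : Ix) {z : Ix → ℝ} {d : Fin 3 → Ix → ℝ}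
    (hz : ∀ j, rr ν j * |z j| ≤ H) (hd : ∀ j m, |d j m| ≤ 2 * θ) (hπ : rr ν i * |π| ≤ R * H) :
    2 * ψ * (rr ν i ^ 2 * (z i * (π - dmp i * (k / 2) * z i))) +
      ψ' * (rr ν i ^ 2 * c1 i * (z i * z i)) +
      ψ * (rr ν i ^ 2 * ((fl i).map fun t =>
        (t.1 : ℝ) * (d t.2.2.1 t.2.1 * (z i * z t.2.2.2))).sum) ≤
      (2 * R + 2 * θ / ν * cf i) * (ψ * H ^ 2) +
        k / 16 * (ψ * (rr ν i ^ 2 * c0 i * (z i * z i))) := by
  have hr := rr_bd h1
  have hr0 : ∀ j, 0 ≤ rr ν j := fun j => h0.le.trans (hr j).1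
  have hH : 0 ≤ H := (mul_nonneg (hr0 i) (abs_nonneg _)).trans (hz i)
  obtain ⟨-, -, t3, t4, t5, -⟩ := tab1 i (all_mem i)
  have e1 : rr ν i ^ 2 * (z i * (π - dmp i * (k / 2) * z i)) ≤ R * H ^ 2 := by
    have a := mul_le_mul (hz i) hπ (mul_nonneg (hr0 i) (abs_nonneg _)) hH
    have b : z i * π ≤ |z i| * |π| := by rw [← abs_mul]; exact le_abs_self _
    have c := mul_le_mul_of_nonneg_left b (sq_nonneg (rr ν i))
    have t5' : (0 : ℝ) ≤ dmp i := by exact_mod_cast t5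
    have d : 0 ≤ rr ν i ^ 2 * (dmp i * (k / 2) * (z i * z i)) :=
      mul_nonneg (sq_nonneg _) (mul_nonneg (by positivity) (mul_self_nonneg _))
    nlinarith
  have e2 : ψ' * (rr ν i ^ 2 * c1 i * (z i * z i)) ≤
      k / 16 * ψ * (rr ν i ^ 2 * c0 i * (z i * z i)) := by
    refine (le_abs_self _).trans ?_
    rw [abs_mul]
    refine mul_le_mul hψ' ?_ (abs_nonneg _) (by positivity)
    rw [abs_mul, abs_mul, abs_of_nonneg (sq_nonneg _), abs_of_nonneg (mul_self_nonneg (z i))]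
    have : |(c1 i : ℝ)| ≤ c0 i := abs_le.2 ⟨by exact_mod_cast t3, by exact_mod_cast t4⟩
    exact mul_le_mul_of_nonneg_right (mul_le_mul_of_nonneg_left this (sq_nonneg _))
      (mul_self_nonneg _)
  have e3 : rr ν i ^ 2 * ((fl i).map fun t =>
      (t.1 : ℝ) * (d t.2.2.1 t.2.1 * (z i * z t.2.2.2))).sum ≤ cf i * (2 * θ / ν * H ^ 2) := by
    rw [cf, ← List.sum_map_mul_right, ← List.sum_map_mul_left]
    refine lsum_le _ fun t _ => (le_abs_self _).trans ?_
    have a : rr ν i * |z t.2.2.2| ≤ H / ν := by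
      rw [le_div_iff₀ h0]
      refine le_trans ?_ (hz t.2.2.2)
      have := mul_le_mul (hr i).2 (hr t.2.2.2).1 h0.le zero_le_one
      nlinarith [abs_nonneg (z t.2.2.2)]
    have b := mul_le_mul (hz i) a (mul_nonneg (hr0 i) (abs_nonneg _)) hH
    have c := mul_le_mul (hd t.2.2.1 t.2.1) b (mul_nonneg (mul_nonneg (hr0 i) (abs_nonneg _))
      (mul_nonneg (hr0 i) (abs_nonneg _))) (by positivity)
    have d := mul_le_mul_of_nonneg_left c (abs_nonneg (t.1 : ℝ))
    rw [abs_mul, abs_mul, abs_mul, abs_mul, abs_of_nonneg (sq_nonneg _)]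
    refine le_trans (le_of_eq (by ring)) (d.trans (le_of_eq (by ring)))
  have a := mul_le_mul_of_nonneg_left e1 hψ
  have b := mul_le_mul_of_nonneg_left e3 hψ
  nlinarith

theorem en_id {w : ℝ × X3 → Ix → ℝ} {ψ : ℝ → ℝ} (hψ : ContDiff ℝ 1 ψ)
    (h1 : ∀ i, ContDiff ℝ ∞ (cmp w i)) (h2 : ∀ i, HasCompactSupport (cmp w i)) (n : ℕ) (t : ℝ) :
    Integrable fun x : X3 => ψ x.1 * en n w (t, x) := by
  have h := Idn.sum Finset.univ fun i => Idn.lsum (words n) fun α _ =>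
    Idn.base (((dxl_sm α (h1 i)).of_le (by simp)).pow 2)
      ((dxl_cs α (h2 i)).comp_left (g := fun y : ℝ => y ^ 2) (by simp))
  have hp : Continuous fun p : ℝ × X3 => ψ p.2.1 := hψ.continuous.comp (by fun_prop)
  exact P354HU.int_sl (f := fun p => ψ p.2.1 * en n w p) (hp.mul h.cd.continuous) h.cs.mul_left t

theorem xen (hq : CEQ) : XEN := by
  intro k n m hk hnm hm
  set N : ℝ := ((words n).length : ℝ) with hN
  have hN0 : 0 ≤ N := Nat.cast_nonneg _
  have hl : 0 ≤ ∑ i, cl i := Finset.sum_nonneg fun i _ => cl_nn i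
  have hc : 0 ≤ 2 ^ n * 8 * ∑ i, cq i + 2 * ∑ i, cf i := by
    have := Finset.sum_nonneg (s := Finset.univ) fun i _ => cq_nn i
    have := Finset.sum_nonneg (s := Finset.univ) fun i _ => cf_nn i
    positivity
  obtain ⟨ν, h0, h1, h2⟩ : ∃ ν : ℝ, 0 < ν ∧ ν ≤ 1 ∧ N * (2 * ν * ∑ i, cl i) ≤ k / 32 := by
    refine ⟨min 1 (k / (64 * (N * ∑ i, cl i + 1))), lt_min one_pos (by positivity),
      min_le_left _ _, ?_⟩
    have a := min_le_right 1 (k / (64 * (N * ∑ i, cl i + 1)))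
    have b : 0 < min 1 (k / (64 * (N * ∑ i, cl i + 1))) := lt_min one_pos (by positivity)
    rw [le_div_iff₀ (by positivity)] at a
    nlinarith
  obtain ⟨θ, hθ, h3⟩ : ∃ θ : ℝ, 0 < θ ∧
      N * (θ / ν * (2 ^ n * 8 * ∑ i, cq i + 2 * ∑ i, cf i)) ≤ k / 32 := by
    refine ⟨ν * (k / (32 * (N * (2 ^ n * 8 * ∑ i, cq i + 2 * ∑ i, cf i) + 1))), by positivity, ?_⟩
    rw [mul_div_cancel_left₀ _ h0.ne', mul_left_comm, div_mul_eq_mul_div,
      div_le_div_iff₀ (by positivity) (by norm_num)]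
    nlinarith
  refine ⟨θ, 2 / ν ^ 2, hθ, by positivity, fun K w T hK hw hlo ψ hψ hψ0 hψ' t ht => ?_⟩
  have hr := rr_bd h1
  have hU : ∀ i, ContDiff ℝ 1 (cmp (K + w) i) := fun i =>
    ((hK.sm i).add (hw.sm i)).of_le (by simp)
  have hI := Idn.lsum (words n) fun α _ => one_word k ν hψ hU
    (z := fun j => dxl α (cmp w j)) (fun i => (dxl_sm α (hw.sm i)).of_le (by simp))
    fun i => dxl_cs α (hw.cs i)
  have hc0 : ∀ i, (1 : ℝ) ≤ c0 i ∧ (c0 i : ℝ) ≤ 2 := fun i =>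
    ⟨by exact_mod_cast (tab1 i (all_mem i)).1, by exact_mod_cast (tab1 i (all_mem i)).2.1⟩
  have hf : ∀ (p : ℝ × X3) (s : Ix → ℝ), ψ p.2.1 * ∑ i, s i *
      ((words n).map fun α => dxl α (cmp w i) p ^ 2).sum = ((words n).map fun α => ∑ i, ψ p.2.1 *
        (s i * (dxl α (cmp w i) p * dxl α (cmp w i) p))).sum := by
    intro p s
    simp only [lsum_sum, List.sum_map_mul_left, Finset.mul_sum, pow_two]
  have hs : ∀ (p : ℝ × X3) i, 0 ≤ ((words n).map fun α => dxl α (cmp w i) p ^ 2).sum :=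
    fun p i => lsum_nn _ fun _ _ => sq_nonneg _
  have hE := hI.energy (L := k / 8) (fun p hp => ?_) ht
  · have hf' := fun t x => hf (t, x) fun i => rr ν i ^ 2 * c0 i
    have hi : ∀ t, Integrable fun x : X3 => ψ x.1 * ∑ i, rr ν i ^ 2 * c0 i *
        ((words n).map fun α => dxl α (cmp w i) (t, x) ^ 2).sum := fun t =>
      (P354HU.int_sl hI.cd.continuous hI.cs t).congr (Eventually.of_forall fun x => (hf' t x).symm)
    rw [← integral_congr_ae (Eventually.of_forall (hf' t)),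
      ← integral_congr_ae (Eventually.of_forall (hf' 0))] at hE
    have a := integral_mono ((en_id hψ hw.sm hw.cs n t).const_mul (ν ^ 2)) (hi t) fun x => by
      simp only [en]
      rw [mul_left_comm, Finset.mul_sum]
      refine mul_le_mul_of_nonneg_left (Finset.sum_le_sum fun i _ =>
        mul_le_mul_of_nonneg_right ?_ (hs _ i)) (hψ0 _)
      exact (pow_le_pow_left₀ h0.le (hr i).1 2).trans
        (le_mul_of_one_le_right (sq_nonneg _) (hc0 i).1)
    have b := integral_mono (hi 0) ((en_id hψ hw.sm hw.cs n 0).const_mul 2) fun x => by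
      simp only [en]
      rw [mul_left_comm, Finset.mul_sum _ _ 2]
      refine mul_le_mul_of_nonneg_left (Finset.sum_le_sum fun i _ =>
        mul_le_mul_of_nonneg_right ?_ (hs _ i)) (hψ0 _)
      have := pow_le_one₀ (n := 2) (h0.le.trans (hr i).1) (hr i).2
      nlinarith [(hc0 i).1, (hc0 i).2]
    rw [integral_const_mul] at a b
    have c := a.trans (hE.trans (mul_le_mul_of_nonneg_left b (Real.exp_pos _).le))
    rw [← le_div_iff₀' (by positivity)] at c
    exact c.trans (le_of_eq (by ring))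
  set F := ∑ i, rr ν i ^ 2 * ((words n).map fun α => dxl α (cmp w i) p ^ 2).sum with hF
  have hF0 : 0 ≤ F := Finset.sum_nonneg fun i _ => mul_nonneg (sq_nonneg _) (hs p i)
  have hz : ∀ α ∈ words n, ∀ j, rr ν j * |dxl α (cmp w j) p| ≤ √F := by
    intro α hα j
    refine Real.le_sqrt_of_sq_le ?_
    rw [mul_pow, sq_abs]
    refine le_trans (mul_le_mul_of_nonneg_left (le_lsum (f := fun α => dxl α (cmp w j) p ^ 2)
      (fun _ => sq_nonneg _) hα) (sq_nonneg _)) ?_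
    exact Finset.single_le_sum (f := fun i => rr ν i ^ 2 *
      ((words n).map fun α => dxl α (cmp w i) p ^ 2).sum)
      (fun i _ => mul_nonneg (sq_nonneg _) (hs p i)) (Finset.mem_univ j)
  have hg : ∀ i, Pb (n + 1) (Ub k K i) p θ := fun i α hα => by
    refine (hK.bd i p hp.1 α hα).trans (mul_le_of_le_one_right hθ.le ?_)
    refine Real.exp_le_one_iff.2 ?_
    have := hp.1
    split_ifs <;> nlinarith
  have hd : ∀ j i, |dx j (cmp (K + w) i) p| ≤ 2 * θ := by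
    intro j i
    have a := hg i [j] (by simp)
    have b := hlo p hp i [j] (by simpa using hm)
    have c : cmp (K + w) i = fun q => (Ub k K i q + U0 k i) + cmp w i q := by
      funext q; simp [Ub, P354A.cmp]
    have s1 : ContDiff ℝ 1 (Ub k K i) := ((hK.sm i).of_le (by simp)).sub contDiff_const
    simp only [dxl, dx] at a b
    rw [c, dx, fv_add (s1.add contDiff_const) ((hw.sm i).of_le (by simp)),
      fv_add s1 contDiff_const]
    simp only [fderiv_fun_const, Pi.zero_apply, zero_apply, add_zero]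
    exact (abs_add_le _ _).trans (by linarith)
  have hb : ∀ α ∈ words n, ∀ i, rr ν i * |prin k ((K + w) p) (fun j => dxl α (cmp w j)) i p| ≤
      (ν * cl i + 2 ^ n * (4 * θ / ν) * cq i) * √F := fun α hα i => by
    refine le_trans (mul_le_mul_of_nonneg_left (hq k T K w n m _ _ (fun j => √F / rr ν j) p hK.sm
      hw hp hnm hg (hlo p hp) (fun j β hβ => ?_) α (mem_words.1 hα) i) (h0.le.trans (hr i).1))
      (rb_le h0 h1 hθ.le (Real.sqrt_nonneg _) n i)
    rw [le_div_iff₀' (h0.trans_le (hr j).1)]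
    exact hz β (mem_words.2 hβ) j
  refine (lsum_le _ fun α hα => Finset.sum_le_sum fun i _ =>
    one_bd h0 h1 hθ.le hk (hψ0 _) (hψ' _) i (z := fun j => dxl α (cmp w j) p)
      (d := fun j i => dx j (cmp (K + w) i) p) (hz α hα) hd (hb α hα i)).trans ?_
  simp only [Finset.sum_add_distrib, ← Finset.sum_mul, List.sum_map_add, List.map_const',
    List.sum_replicate, nsmul_eq_mul, ← hN, Real.sq_sqrt hF0]
  have a : ψ p.2.1 * F ≤ ((words n).map fun α => ∑ i, ψ p.2.1 *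
      (rr ν i ^ 2 * c0 i * (dxl α (cmp w i) p * dxl α (cmp w i) p))).sum := by
    rw [← hf]
    refine mul_le_mul_of_nonneg_left (Finset.sum_le_sum fun i _ =>
      mul_le_mul_of_nonneg_right ?_ (hs _ i)) (hψ0 _)
    exact le_mul_of_one_le_right (sq_nonneg _) (hc0 i).1
  have b : 0 ≤ ψ p.2.1 * F := mul_nonneg (hψ0 _) hF0
  simp only [← Finset.mul_sum, List.sum_map_mul_left, Finset.sum_add_distrib] at a ⊢
  have c : N * ((2 * (ν * ∑ i, cl i + 2 ^ n * (4 * θ / ν) * ∑ i, cq i) + 2 * θ / ν * ∑ i, cf i))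
      ≤ k / 16 := by
    refine le_trans (le_of_eq (by ring)) ((add_le_add h2 h3).trans (le_of_eq (by ring)))
  have d := mul_le_mul_of_nonneg_right c b
  have e := mul_le_mul_of_nonneg_left a (show 0 ≤ k / 16 by positivity)
  nlinarith

end Vale.Agent.P354X
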